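import Vale.Agent.P173.Defs
import Vale.Agent.P173.GdDefs

/-! The relation module of a family of generators, as the group of 1-cycles of the Cayley graph. -/

namespace Vale.Agent.P173

universe u v

section

variable {Γ : Type} [Group Γ] {X : Type u}

/-- The boundary map `C₁ → C₀` of the Cayley graph of `Γ` with respect to `φ : X → Γ`: the edge
`(x, h)` goes from `h` to `h * φ x`. -/
noncomputable def edgeBoundary (φ : X → Γ) : (X × Γ →₀ ℤ) →ₗ[ℤ] (Γ →₀ ℤ) :=
  Finsupp.linearCombination ℤ fun e => Finsupp.single (e.2 * φ e.1) 1 - Finsupp.single e.2 1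

/-- Left translation of a 1-chain of the Cayley graph by the element `γ` of `Γ`. -/
noncomputable def translate (γ : Γ) (z : X × Γ →₀ ℤ) : X × Γ →₀ ℤ :=
  z.mapDomain fun e => (e.1, γ * e.2)

/-- The family `b` is a basis over `ℤ[Γ]` of the relation module of `φ`, that is, of the group of
integral 1-cycles (the first homology group) of the Cayley graph: the translates of the members of
`b` by the elements of `Γ` form a `ℤ`-basis of the group of 1-cycles. -/
def IsRelationBasis (φ : X → Γ) {B : Type v} (b : B → (X × Γ →₀ ℤ)) : Prop :=
  LinearIndependent ℤ (fun q : B × Γ => translate q.2 (b q.1)) ∧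
    Submodule.span ℤ (Set.range fun q : B × Γ => translate q.2 (b q.1)) =
      LinearMap.ker (edgeBoundary φ)

end

end Vale.Agent.P173
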