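import Vale.Agent.P173.H956.Swindle
import Vale.Agent.P173.H312.Main

/-! A presentation whose presentation complex is not aspherical is not aspherical over any nonzero
commutative ring. -/

open CategoryTheory

namespace Vale.Agent.P173.H956

universe u w

variable {Γ : Type} [Group Γ]

theorem translate_pathChain {X : Type u} (φ : X → Γ) (l : List (X × Bool)) (γ h : Γ) :
    translate γ (pathChain φ l h) = pathChain φ l (γ * h) := by
  induction l generalizing h with
  | nil => exact translate_zero γ
  | cons a l ih =>
    obtain ⟨x, t⟩ := a
    cases t with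
    | true =>
      rw [Topo.pathChain_true, Topo.pathChain_true, translate_add, ih, translate_single, mul_assoc]
    | false =>
      have hn : translate γ (- Finsupp.single (x, h * (φ x)⁻¹) (1 : ℤ)) =
          - Finsupp.single (x, γ * (h * (φ x)⁻¹)) 1 := by
        rw [← Finsupp.single_neg, translate_single, Finsupp.single_neg]
      rw [Topo.pathChain_false, Topo.pathChain_false, translate_add, ih, hn, mul_assoc]

theorem pathChain_one {X : Type u} (φ : X → Γ) (l : List (X × Bool)) (γ : Γ) :
    translate γ (pathChain φ l 1) = pathChain φ l γ := by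
  rw [translate_pathChain, mul_one]

/-- A nonzero integral relation gives a nonzero relation over every nonzero ring. -/
theorem not_linearIndependent_cast {I J : Type*} (v : I → (J →₀ ℤ)) (hv : ¬ LinearIndependent ℤ v)
    (k : Type w) [CommRing k] [Nontrivial k] :
    ¬ LinearIndependent k (fun i => (v i).mapRange (Int.cast : ℤ → k) Int.cast_zero) := by
  classical
  intro hk
  apply hv
  rw [linearIndependent_iff]
  by_contra hcon
  push Not at hcon
  obtain ⟨z, hz, hz0⟩ := hcon
  -- divide by the content
  obtain ⟨g, hg1, hg2⟩ := Finset.extract_gcd (fun i => z i) (Finsupp.support_nonempty_iff.2 hz0)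
  set d : ℤ := z.support.gcd fun i => z i with hd
  have hd0 : d ≠ 0 := by
    intro h0
    apply hz0
    ext i
    by_cases hi : i ∈ z.support
    · have := hg1 i hi
      rw [h0, zero_mul] at this
      exact this
    · exact Finsupp.notMem_support_iff.1 hi
  let y : I →₀ ℤ := Finsupp.onFinset z.support (fun i => if i ∈ z.support then g i else 0)
    (fun i hi => by
      by_contra h
      exact hi (if_neg h))
  have hy : ∀ i ∈ z.support, y i = g i := fun i hi => by
    simp only [y, Finsupp.onFinset_apply, if_pos hi]
  have hzy : z = d • y := by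
    ext i
    rw [Finsupp.smul_apply, smul_eq_mul]
    by_cases hi : i ∈ z.support
    · rw [hy i hi]; exact hg1 i hi
    · have h2 : y i = 0 := by simp only [y, Finsupp.onFinset_apply, if_neg hi]
      rw [h2, mul_zero]; exact Finsupp.notMem_support_iff.1 hi
  have hy0 : Finsupp.linearCombination ℤ v y = 0 := by
    rw [hzy, map_smul] at hz
    ext j
    have h3 := DFunLike.congr_fun hz j
    rw [Finsupp.smul_apply, smul_eq_mul, Finsupp.zero_apply] at h3
    exact (mul_eq_zero.1 h3).resolve_left hd0
  -- the relation over `k`
  have key : ∀ y : I →₀ ℤ, Finsupp.linearCombination k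
      (fun i => (v i).mapRange (Int.cast : ℤ → k) Int.cast_zero)
        (y.mapRange (Int.cast : ℤ → k) Int.cast_zero) =
      (Finsupp.linearCombination ℤ v y).mapRange (Int.cast : ℤ → k) Int.cast_zero := by
    intro y
    induction y using Finsupp.induction_linear with
    | zero => simp
    | add a b ha hb =>
      rw [Finsupp.mapRange_add Int.cast_add, map_add, ha, hb, map_add,
        Finsupp.mapRange_add Int.cast_add]
    | single i n =>
      rw [Finsupp.mapRange_single, Finsupp.linearCombination_single,
        Finsupp.linearCombination_single]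
      ext j
      simp
  have hk0 : y.mapRange (Int.cast : ℤ → k) Int.cast_zero = 0 := by
    apply (linearIndependent_iff.1 hk)
    rw [key, hy0, Finsupp.mapRange_zero]
  have hall : ∀ i ∈ z.support, ((g i : ℤ) : k) = 0 := by
    intro i hi
    have h3 := DFunLike.congr_fun hk0 i
    rw [Finsupp.mapRange_apply, hy i hi, Finsupp.zero_apply] at h3
    exact h3
  -- the characteristic divides all the coefficients
  have hdvd : (ringChar k : ℤ) ∣ z.support.gcd g := by
    refine Finset.dvd_gcd fun i hi => ?_
    exact (CharP.intCast_eq_zero_iff k (ringChar k) (g i)).1 (hall i hi)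
  rw [hg2] at hdvd
  have h1 : ((1 : ℤ) : k) = 0 := (CharP.intCast_eq_zero_iff k (ringChar k) 1).2 hdvd
  rw [Int.cast_one] at h1
  exact one_ne_zero h1

/-- No presentation complex is acyclic over `k`. -/
theorem not_linearIndependent_of_not_aspherical (P : Pres.{u} Γ) (hP : ¬ P.Aspherical)
    (k : Type w) [CommRing k] [Nontrivial k] :
    ¬ LinearIndependent k (fun q : P.R × Γ =>
      (translate q.2 (pathChain P.φ (P.rel q.1) 1)).mapRange (Int.cast : ℤ → k) Int.cast_zero) := by
  apply not_linearIndependent_cast
  intro hli
  apply hP
  have e : (fun q : P.R × Γ => translate q.2 (pathChain P.φ (P.rel q.1) 1)) =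
      fun q : P.R × Γ => pathChain P.φ (P.rel q.1) q.2 := by
    funext q
    exact pathChain_one _ _ _
  rw [e] at hli
  exact hli

theorem not_isRelationBasis_of_not_aspherical (P : Pres.{u} Γ) (hP : ¬ P.Aspherical) :
    ¬ IsRelationBasis P.φ (fun r => pathChain P.φ (P.rel r) 1) := by
  intro h
  apply hP
  have e : (fun q : P.R × Γ => translate q.2 (pathChain P.φ (P.rel q.1) 1)) =
      fun q : P.R × Γ => pathChain P.φ (P.rel q.1) q.2 := by
    funext q
    exact pathChain_one _ _ _
  have := h.1
  rw [e] at this
  exact this

end Vale.Agent.P173.H956
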