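import Vale.Agent.P173.H956.Section

/-! The relation module is projective if the trivial module has projective dimension at most two;
equivariant section of the canonical surjection. -/

open CategoryTheory CategoryTheory.Limits

namespace Vale.Agent.P173.H956

variable {Γ : Type} [Group Γ] {X : Type} (φ : X → Γ)

/-- the relation module -/
noncomputable abbrev ZR : Rep.{0} ℤ Γ := Rep.of (rhoZ φ)

/-- the inclusion -/
noncomputable def incl : ZR φ ⟶ permRep ℤ Γ (FX Γ X) :=
  Rep.ofHom (ρ := rhoZ φ) (σ := permRho ℤ Γ (FX Γ X))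
    (LinearMap.intertwiningMap_of_isIntertwiningMap _ _ (ZZ φ).subtype (fun _ _ => rfl))

theorem incl_apply (z : ZZ φ) : (incl φ).hom z = (z : FX Γ X →₀ ℤ) := rfl

variable {φ}

theorem projective_ZR (hφ : Function.Surjective (FreeGroup.lift φ))
    (h2 : HasProjectiveDimensionLE (Rep.trivial ℤ Γ ℤ) 2) : Projective (ZR φ) := by
  have P1 : Projective (permRep ℤ Γ (FX Γ X)) := permRep_projective FX_free
  have P0 : Projective (permRep ℤ Γ Γ) := permRep_projective fun g x h => by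
    rw [smul_eq_mul] at h
    exact mul_eq_right.1 h
  have hepi : Epi (D0 (Γ := Γ)) := by
    rw [Rep.epi_iff_surjective]
    intro n
    refine ⟨Finsupp.single (1 : Γ) n, ?_⟩
    change Finsupp.linearCombination ℤ (fun _ => (1 : ℤ)) _ = n
    rw [Finsupp.linearCombination_single]
    simp
  -- the first syzygy
  have S1 : (ShortComplex.mk (kernel.ι (D0 (Γ := Γ))) D0 (kernel.condition D0)).ShortExact :=
    { exact := ShortComplex.exact_kernel D0 }
  have p1 : HasProjectiveDimensionLT (kernel (D0 (Γ := Γ))) 2 :=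
    S1.hasProjectiveDimensionLT_X₁ 2 inferInstance h2
  -- the second syzygy
  have h10 := D1_D0 φ
  have ex0 : (ShortComplex.mk (D1 φ) D0 h10).Exact := rep_exact_of _ _ h10 fun v hv => exact0 hφ v hv
  let f1 : permRep ℤ Γ (FX Γ X) ⟶ kernel (D0 (Γ := Γ)) := kernel.lift D0 (D1 φ) h10
  have hf1 : f1 ≫ kernel.ι D0 = D1 φ := kernel.lift_ι _ _ _
  have hf1e : Epi f1 := (ShortComplex.exact_iff_epi_kernel_lift _).1 ex0
  have hi1 : incl φ ≫ D1 φ = 0 := by
    ext : 1
    apply Representation.IntertwiningMap.ext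
    apply LinearMap.ext
    intro z
    exact z.2
  have exi : (ShortComplex.mk (incl φ) (D1 φ) hi1).Exact :=
    rep_exact_of _ _ hi1 fun v hv => ⟨⟨v, hv⟩, rfl⟩
  have hi1' : incl φ ≫ f1 = 0 := by
    rw [← cancel_mono (kernel.ι D0), Category.assoc, hf1, hi1, zero_comp]
  have exi' : (ShortComplex.mk (incl φ) f1 hi1').Exact := by
    let ψ : ShortComplex.mk (incl φ) f1 hi1' ⟶ ShortComplex.mk (incl φ) (D1 φ) hi1 :=
      { τ₁ := 𝟙 _, τ₂ := 𝟙 _, τ₃ := kernel.ι D0, comm₂₃ := by simp [hf1] }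
    have : Epi ψ.τ₁ := by dsimp [ψ]; infer_instance
    have : IsIso ψ.τ₂ := by dsimp [ψ]; infer_instance
    have : Mono ψ.τ₃ := by dsimp [ψ]; infer_instance
    exact (ShortComplex.exact_iff_of_epi_of_isIso_of_mono ψ).2 exi
  have hmono : Mono (incl φ) := by
    rw [Rep.mono_iff_injective]
    exact Subtype.val_injective
  have S2 : (ShortComplex.mk (incl φ) f1 hi1').ShortExact := { exact := exi' }
  have p2 : HasProjectiveDimensionLT (ZR φ) 1 := S2.hasProjectiveDimensionLT_X₁ 1 inferInstance p1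
  exact projective_iff_hasProjectiveDimensionLT_one.2 p2

/-- **Equivariant section.** -/
theorem exists_section (hφ : Function.Surjective (FreeGroup.lift φ))
    (h2 : HasProjectiveDimensionLE (Rep.trivial ℤ Γ ℤ) 2) :
    ∃ σ : ZZ φ →ₗ[ℤ] (FX Γ (ZZ φ) →₀ ℤ),
      (∀ z, Finsupp.linearCombination ℤ (fun e : FX Γ (ZZ φ) => rhoZ φ e.h e.x) (σ z) = z) ∧
      ∀ γ z, σ (rhoZ φ γ z) = permRho ℤ Γ (FX Γ (ZZ φ)) γ (σ z) := by
  have hP := projective_ZR hφ h2
  let p : permRep ℤ Γ (FX Γ (ZZ φ)) ⟶ ZR φ :=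
    permLift (ZR φ) (fun e : FX Γ (ZZ φ) => rhoZ φ e.h e.x) (fun g e => by
      rw [smul_def, map_mul]
      rfl)
  have hp : Epi p := by
    rw [Rep.epi_iff_surjective]
    intro z
    refine ⟨Finsupp.single ⟨z, 1⟩ 1, ?_⟩
    change Finsupp.linearCombination ℤ (fun e : FX Γ (ZZ φ) => rhoZ φ e.h e.x) _ = z
    rw [Finsupp.linearCombination_single, one_smul, map_one]
    rfl
  have hs : Projective.factorThru (𝟙 (ZR φ)) p ≫ p = 𝟙 _ := Projective.factorThru_comp _ _
  refine ⟨(Projective.factorThru (𝟙 (ZR φ)) p).hom.toLinearMap, fun z => ?_, fun γ z => ?_⟩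
  · have h3 := congrArg (fun f : ZR φ ⟶ ZR φ => f.hom z) hs
    exact h3
  · exact Rep.hom_comm_apply (Projective.factorThru (𝟙 (ZR φ)) p) γ z

end Vale.Agent.P173.H956
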