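import Vale.Agent.P173.Bdl.B1
import Vale.Agent.P173.H956.Defs

/-! If the trivial module has projective dimension at most two, the relation module of every
generating family is projective: the canonical surjection from a free module onto it has an
equivariant section. -/

open CategoryTheory CategoryTheory.Limits

namespace Vale.Agent.P173.H956

variable {Γ : Type} [Group Γ]

/-- `X × Γ` with the translation action on the second factor. -/
structure FX (Γ X : Type) where
  x : X
  h : Γ

instance (X : Type) : MulAction Γ (FX Γ X) where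
  smul γ e := ⟨e.x, γ * e.h⟩
  one_smul e := by
    change FX.mk e.x (1 * e.h) = e
    rw [one_mul]
  mul_smul a b e := by
    change FX.mk e.x (a * b * e.h) = FX.mk e.x (a * (b * e.h))
    rw [mul_assoc]

theorem smul_def {X : Type} (γ : Γ) (e : FX Γ X) : γ • e = ⟨e.x, γ * e.h⟩ := rfl

theorem FX_free {X : Type} (γ : Γ) (e : FX Γ X) (h : γ • e = e) : γ = 1 := by
  have h1 := congrArg FX.h h
  rw [smul_def] at h1
  exact mul_eq_right.1 h1

section

variable {X : Type} (φ : X → Γ)

/-- boundary on edges -/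
noncomputable def dd (e : FX Γ X) : Γ →₀ ℤ :=
  Finsupp.single (e.h * φ e.x) 1 - Finsupp.single e.h 1

theorem dd_smul (γ : Γ) (e : FX Γ X) : dd φ (γ • e) = permRho ℤ Γ Γ γ (dd φ e) := by
  rw [smul_def, dd, dd, map_sub, permRho_single, permRho_single, smul_eq_mul, smul_eq_mul,
    mul_assoc]

/-- the boundary as a morphism -/
noncomputable def D1 : permRep ℤ Γ (FX Γ X) ⟶ permRep ℤ Γ Γ :=
  permLift (permRep ℤ Γ Γ) (dd φ) (dd_smul φ)

theorem D1_apply (v : FX Γ X →₀ ℤ) :
    (D1 φ).hom v = Finsupp.linearCombination ℤ (dd φ) v := rfl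

/-- the augmentation -/
noncomputable def D0 : permRep ℤ Γ Γ ⟶ Rep.trivial ℤ Γ ℤ :=
  permLift (Rep.trivial ℤ Γ ℤ) (fun _ => 1) (fun _ _ => rfl)

theorem D0_apply (v : Γ →₀ ℤ) :
    (D0 (Γ := Γ)).hom v = Finsupp.linearCombination ℤ (fun _ => (1 : ℤ)) v := rfl

theorem D1_D0 : D1 φ ≫ D0 = 0 := by
  apply perm_hom_ext
  intro e
  rw [Rep.hom_comp, Representation.IntertwiningMap.comp_apply]
  have e1 : (D1 φ).hom (Finsupp.single e (1 : ℤ)) = dd φ e := permLift_single _ _ _ _
  change D0.hom ((D1 φ).hom (Finsupp.single e (1 : ℤ))) = 0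
  rw [e1, D0_apply, dd, map_sub, Finsupp.linearCombination_single,
    Finsupp.linearCombination_single, sub_self]

variable {φ}

/-- every difference of vertices is a boundary -/
theorem exists_path (hφ : Function.Surjective (FreeGroup.lift φ)) (g : Γ) :
    ∃ c : FX Γ X →₀ ℤ, Finsupp.linearCombination ℤ (dd φ) c =
      Finsupp.single g 1 - Finsupp.single 1 1 := by
  obtain ⟨w, rfl⟩ := hφ g
  have key : ∀ (w : FreeGroup X) (h : Γ), ∃ c : FX Γ X →₀ ℤ,
      Finsupp.linearCombination ℤ (dd φ) c =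
        Finsupp.single (h * FreeGroup.lift φ w) 1 - Finsupp.single h 1 := by
    intro w
    induction w using FreeGroup.induction_on with
    | C1 =>
      intro h
      exact ⟨0, by rw [map_zero, map_one, mul_one, sub_self]⟩
    | of x =>
      intro h
      refine ⟨Finsupp.single ⟨x, h⟩ 1, ?_⟩
      rw [Finsupp.linearCombination_single, one_smul, dd, FreeGroup.lift_apply_of]
    | inv_of x _ =>
      intro h
      refine ⟨- Finsupp.single ⟨x, h * (φ x)⁻¹⟩ 1, ?_⟩
      rw [map_neg, Finsupp.linearCombination_single, one_smul, dd, map_inv,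
        FreeGroup.lift_apply_of, inv_mul_cancel_right, neg_sub]
    | mul a b ha hb =>
      intro h
      obtain ⟨c1, h1⟩ := ha h
      obtain ⟨c2, h2⟩ := hb (h * FreeGroup.lift φ a)
      refine ⟨c1 + c2, ?_⟩
      rw [map_add, h1, h2, map_mul, ← mul_assoc]
      abel
  obtain ⟨c, hc⟩ := key w 1
  exact ⟨c, by rw [hc, one_mul]⟩

theorem exact0 (hφ : Function.Surjective (FreeGroup.lift φ)) (v : Γ →₀ ℤ)
    (hv : Finsupp.linearCombination ℤ (fun _ => (1 : ℤ)) v = 0) :
    ∃ c : FX Γ X →₀ ℤ, Finsupp.linearCombination ℤ (dd φ) c = v := by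
  choose c hc using exists_path hφ
  refine ⟨Finsupp.linearCombination ℤ c v, ?_⟩
  have h1 : ∀ v : Γ →₀ ℤ, Finsupp.linearCombination ℤ (dd φ) (Finsupp.linearCombination ℤ c v) =
      v - (Finsupp.linearCombination ℤ (fun _ => (1 : ℤ)) v) • Finsupp.single (1 : Γ) (1 : ℤ) := by
    intro v
    induction v using Finsupp.induction_linear with
    | zero => simp
    | add f g hf hg =>
      rw [map_add, map_add, hf, hg, map_add, add_smul]
      abel
    | single g n =>
      rw [Finsupp.linearCombination_single, map_smul, hc, Finsupp.linearCombination_single,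
        smul_sub]
      simp
  rw [h1, hv, zero_smul, sub_zero]

/-- the relation module -/
noncomputable def ZZ (φ : X → Γ) : Submodule ℤ (FX Γ X →₀ ℤ) :=
  LinearMap.ker (Finsupp.linearCombination ℤ (dd φ))

theorem mem_ZZ {v : FX Γ X →₀ ℤ} : v ∈ ZZ φ ↔ Finsupp.linearCombination ℤ (dd φ) v = 0 := Iff.rfl

theorem lc_smul (γ : Γ) (v : FX Γ X →₀ ℤ) :
    Finsupp.linearCombination ℤ (dd φ) (permRho ℤ Γ (FX Γ X) γ v) =
      permRho ℤ Γ Γ γ (Finsupp.linearCombination ℤ (dd φ) v) := by
  induction v using Finsupp.induction_linear with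
  | zero => simp
  | add f g hf hg => simp only [map_add, hf, hg]
  | single e n =>
    rw [permRho_single, Finsupp.linearCombination_single, Finsupp.linearCombination_single,
      dd_smul, map_smul]

theorem ZZ_smul (γ : Γ) : ZZ φ ≤ (ZZ φ).comap (permRho ℤ Γ (FX Γ X) γ) := by
  intro v hv
  rw [Submodule.mem_comap, mem_ZZ, lc_smul, mem_ZZ.1 hv, map_zero]

/-- the relation module as a representation -/
noncomputable def rhoZ (φ : X → Γ) : Representation ℤ Γ (ZZ φ) :=
  (permRho ℤ Γ (FX Γ X)).subrepresentation (ZZ φ) ZZ_smul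

theorem rhoZ_coe (γ : Γ) (z : ZZ φ) :
    ((rhoZ φ γ z : ZZ φ) : FX Γ X →₀ ℤ) = permRho ℤ Γ (FX Γ X) γ z := rfl

end

end Vale.Agent.P173.H956
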