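import Vale.Agent.P173.H956.Proj

/-! After adding generators which are trivial in the group, the relation module becomes free
(Eilenberg's swindle, with an explicit basis). -/

namespace Vale.Agent.P173.H956

variable {Γ : Type} [Group Γ] {X : Type} {φ : X → Γ}

/-- the new generators -/
abbrev YY (φ : X → Γ) : Type := ZZ φ × ℕ

/-- the edges of the new Cayley graph -/
abbrev EE' (φ : X → Γ) : Type := (X ⊕ YY φ) × Γ

/-- the free module -/
abbrev FF (φ : X → Γ) : Type := FX Γ (ZZ φ) →₀ ℤ

/-- the new generating family -/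
def phi' (φ : X → Γ) : X ⊕ YY φ → Γ := Sum.elim φ fun _ => 1

/-- old chains -/
noncomputable def inlC (φ : X → Γ) : (FX Γ X →₀ ℤ) →ₗ[ℤ] (EE' φ →₀ ℤ) :=
  Finsupp.lmapDomain ℤ ℤ fun e => (Sum.inl e.x, e.h)

/-- new chains of level `n` -/
noncomputable def lv (φ : X → Γ) (n : ℕ) : FF φ →ₗ[ℤ] (EE' φ →₀ ℤ) :=
  Finsupp.lmapDomain ℤ ℤ fun e => (Sum.inr (e.x, n), e.h)

/-- chains of level `n` in the new free module -/
noncomputable def dv (φ : X → Γ) (n : ℕ) : FF φ →ₗ[ℤ] (YY φ × Γ →₀ ℤ) :=
  Finsupp.lmapDomain ℤ ℤ fun e => ((e.x, n), e.h)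

/-- the canonical surjection -/
noncomputable def ss (φ : X → Γ) : FF φ →ₗ[ℤ] ZZ φ :=
  Finsupp.linearCombination ℤ fun e : FX Γ (ZZ φ) => rhoZ φ e.h e.x

theorem inlC_single (e : FX Γ X) (r : ℤ) :
    inlC φ (Finsupp.single e r) = Finsupp.single (Sum.inl e.x, e.h) r := by
  rw [inlC, Finsupp.lmapDomain_apply, Finsupp.mapDomain_single]

theorem lv_single (n : ℕ) (e : FX Γ (ZZ φ)) (r : ℤ) :
    lv φ n (Finsupp.single e r) = Finsupp.single (Sum.inr (e.x, n), e.h) r := by
  rw [lv, Finsupp.lmapDomain_apply, Finsupp.mapDomain_single]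

theorem dv_single (n : ℕ) (e : FX Γ (ZZ φ)) (r : ℤ) :
    dv φ n (Finsupp.single e r) = Finsupp.single ((e.x, n), e.h) r := by
  rw [dv, Finsupp.lmapDomain_apply, Finsupp.mapDomain_single]

theorem translate_single {X : Type*} (γ : Γ) (e : X × Γ) (r : ℤ) :
    translate γ (Finsupp.single e r) = Finsupp.single (e.1, γ * e.2) r := by
  rw [translate, Finsupp.mapDomain_single]

theorem translate_add {X : Type*} (γ : Γ) (a b : X × Γ →₀ ℤ) :
    translate γ (a + b) = translate γ a + translate γ b := Finsupp.mapDomain_add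

theorem translate_zero {X : Type*} (γ : Γ) : translate γ (0 : X × Γ →₀ ℤ) = 0 :=
  Finsupp.mapDomain_zero

theorem translate_inlC (γ : Γ) (v : FX Γ X →₀ ℤ) :
    translate γ (inlC φ v) = inlC φ (permRho ℤ Γ (FX Γ X) γ v) := by
  induction v using Finsupp.induction_linear with
  | zero => rw [map_zero, map_zero, map_zero, translate_zero]
  | add f g hf hg => rw [map_add, translate_add, hf, hg, map_add, map_add]
  | single e r => rw [inlC_single, translate_single, permRho_single, inlC_single, smul_def]

theorem translate_lv (γ : Γ) (n : ℕ) (v : FF φ) :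
    translate γ (lv φ n v) = lv φ n (permRho ℤ Γ (FX Γ (ZZ φ)) γ v) := by
  induction v using Finsupp.induction_linear with
  | zero => rw [map_zero, map_zero, map_zero, translate_zero]
  | add f g hf hg => rw [map_add, translate_add, hf, hg, map_add, map_add]
  | single e r => rw [lv_single, translate_single, permRho_single, lv_single, smul_def]

/-- the member of the basis -/
noncomputable def bb (σ : ZZ φ →ₗ[ℤ] FF φ) : YY φ → (EE' φ →₀ ℤ)
  | (z, 0) => inlC φ z + lv φ 0 (Finsupp.single ⟨z, 1⟩ 1 - σ z)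
  | (z, n + 1) => lv φ (n + 1) (Finsupp.single ⟨z, 1⟩ 1 - σ z) + lv φ n (σ z)

variable {σ : ZZ φ →ₗ[ℤ] FF φ}

theorem translate_bb_zero (hσ : ∀ γ z, σ (rhoZ φ γ z) = permRho ℤ Γ (FX Γ (ZZ φ)) γ (σ z))
    (γ : Γ) (z : ZZ φ) : translate γ (bb σ (z, 0)) =
      inlC φ (rhoZ φ γ z : ZZ φ) + lv φ 0 (Finsupp.single ⟨z, γ⟩ 1 - σ (rhoZ φ γ z)) := by
  rw [bb, translate_add, translate_inlC, translate_lv, map_sub, permRho_single, ← hσ, smul_def,
    mul_one, rhoZ_coe]

theorem translate_bb_succ (hσ : ∀ γ z, σ (rhoZ φ γ z) = permRho ℤ Γ (FX Γ (ZZ φ)) γ (σ z))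
    (γ : Γ) (z : ZZ φ) (n : ℕ) : translate γ (bb σ (z, n + 1)) =
      lv φ (n + 1) (Finsupp.single ⟨z, γ⟩ 1 - σ (rhoZ φ γ z)) + lv φ n (σ (rhoZ φ γ z)) := by
  rw [bb, translate_add, translate_lv, translate_lv, map_sub, permRho_single, ← hσ, smul_def,
    mul_one]

/-- the map of the free module -/
noncomputable def Psi (σ : ZZ φ →ₗ[ℤ] FF φ) : (YY φ × Γ →₀ ℤ) →ₗ[ℤ] (EE' φ →₀ ℤ) :=
  Finsupp.linearCombination ℤ fun q : YY φ × Γ => translate q.2 (bb σ q.1)

theorem Psi_dv_zero (hσ : ∀ γ z, σ (rhoZ φ γ z) = permRho ℤ Γ (FX Γ (ZZ φ)) γ (σ z)) (f : FF φ) :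
    Psi σ (dv φ 0 f) = inlC φ (ss φ f : ZZ φ) + lv φ 0 (f - σ (ss φ f)) := by
  induction f using Finsupp.induction_linear with
  | zero => simp
  | add f g hf hg =>
    rw [map_add, map_add, hf, hg, map_add, Submodule.coe_add, map_add, map_add, ← sub_add_sub_comm,
      map_add]
    abel
  | single e r =>
    rw [dv_single, Psi, Finsupp.linearCombination_single, translate_bb_zero hσ, ss,
      Finsupp.linearCombination_single, map_smul, Submodule.coe_smul, map_smul, smul_add,
      ← map_smul (lv φ 0), smul_sub]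
    simp

theorem Psi_dv_succ (hσ : ∀ γ z, σ (rhoZ φ γ z) = permRho ℤ Γ (FX Γ (ZZ φ)) γ (σ z)) (n : ℕ)
    (f : FF φ) :
    Psi σ (dv φ (n + 1) f) = lv φ (n + 1) (f - σ (ss φ f)) + lv φ n (σ (ss φ f)) := by
  induction f using Finsupp.induction_linear with
  | zero => simp
  | add f g hf hg =>
    rw [map_add, map_add, hf, hg, map_add, map_add, ← sub_add_sub_comm, map_add, map_add]
    abel
  | single e r =>
    rw [dv_single, Psi, Finsupp.linearCombination_single, translate_bb_succ hσ, ss,
      Finsupp.linearCombination_single, map_smul, smul_add, ← map_smul (lv φ (n + 1)), smul_sub,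
      ← map_smul (lv φ n)]
    simp

/-- projection to the old chains -/
noncomputable def c0 (φ : X → Γ) : (EE' φ →₀ ℤ) →ₗ[ℤ] (FX Γ X →₀ ℤ) :=
  Finsupp.linearCombination ℤ fun e => match e.1 with
    | .inl x => Finsupp.single ⟨x, e.2⟩ 1
    | .inr _ => 0

open Classical in
/-- projection to the chains of level `n` -/
noncomputable def cn (φ : X → Γ) (n : ℕ) : (EE' φ →₀ ℤ) →ₗ[ℤ] FF φ :=
  Finsupp.linearCombination ℤ fun e => match e.1 with
    | .inl _ => 0
    | .inr y => if y.2 = n then Finsupp.single ⟨y.1, e.2⟩ 1 else 0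

/-- projection to the chains of level `n` of the new free module -/
noncomputable def pD (φ : X → Γ) (n : ℕ) : (YY φ × Γ →₀ ℤ) →ₗ[ℤ] FF φ :=
  Finsupp.linearCombination ℤ fun q => if q.1.2 = n then Finsupp.single ⟨q.1.1, q.2⟩ 1 else 0

theorem c0_inlC (v : FX Γ X →₀ ℤ) : c0 φ (inlC φ v) = v := by
  induction v using Finsupp.induction_linear with
  | zero => simp
  | add f g hf hg => rw [map_add, map_add, hf, hg]
  | single e r => rw [inlC_single, c0, Finsupp.linearCombination_single]; simp

theorem c0_lv (n : ℕ) (v : FF φ) : c0 φ (lv φ n v) = 0 := by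
  induction v using Finsupp.induction_linear with
  | zero => simp
  | add f g hf hg => rw [map_add, map_add, hf, hg, add_zero]
  | single e r => rw [lv_single, c0, Finsupp.linearCombination_single]; simp

theorem cn_inlC (n : ℕ) (v : FX Γ X →₀ ℤ) : cn φ n (inlC φ v) = 0 := by
  induction v using Finsupp.induction_linear with
  | zero => simp
  | add f g hf hg => rw [map_add, map_add, hf, hg, add_zero]
  | single e r => rw [inlC_single, cn, Finsupp.linearCombination_single]; simp

theorem cn_lv (n m : ℕ) (v : FF φ) : cn φ n (lv φ m v) = if m = n then v else 0 := by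
  induction v using Finsupp.induction_linear with
  | zero => simp
  | add f g hf hg =>
    rw [map_add, map_add, hf, hg]
    split_ifs <;> simp
  | single e r =>
    rw [lv_single, cn, Finsupp.linearCombination_single]
    by_cases h : m = n
    · simp [h]
    · simp [h]

theorem pD_apply (n : ℕ) (x : YY φ × Γ →₀ ℤ) (z : ZZ φ) (γ : Γ) :
    pD φ n x ⟨z, γ⟩ = x ((z, n), γ) := by
  classical
  induction x using Finsupp.induction_linear with
  | zero => simp
  | add f g hf hg => rw [map_add, Finsupp.add_apply, hf, hg, Finsupp.add_apply]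
  | single q r =>
    obtain ⟨⟨z', m⟩, γ'⟩ := q
    rw [pD, Finsupp.linearCombination_single]
    dsimp only
    by_cases h : m = n
    · subst h
      rw [if_pos rfl, Finsupp.smul_apply, Finsupp.single_apply, Finsupp.single_apply]
      by_cases h2 : z' = z ∧ γ' = γ
      · obtain ⟨rfl, rfl⟩ := h2
        simp
      · rw [if_neg, if_neg, smul_zero]
        · intro h3
          obtain ⟨h4, h5⟩ := Prod.mk.inj h3
          exact h2 ⟨(Prod.mk.inj h4).1, h5⟩
        · intro h3
          injection h3 with h4 h5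
          exact h2 ⟨h4, h5⟩
    · rw [if_neg h, smul_zero, Finsupp.zero_apply, Finsupp.single_apply, if_neg]
      intro h3
      exact h (Prod.mk.inj (Prod.mk.inj h3).1).2

theorem cn_Psi (hσ : ∀ γ z, σ (rhoZ φ γ z) = permRho ℤ Γ (FX Γ (ZZ φ)) γ (σ z)) (n : ℕ)
    (x : YY φ × Γ →₀ ℤ) : cn φ n (Psi σ x) =
      pD φ n x - σ (ss φ (pD φ n x)) + σ (ss φ (pD φ (n + 1) x)) := by
  induction x using Finsupp.induction_linear with
  | zero => simp
  | add f g hf hg => simp only [map_add, hf, hg]; abel
  | single q r =>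
    obtain ⟨⟨z, m⟩, γ⟩ := q
    have hr : (Finsupp.single ((z, m), γ) r : YY φ × Γ →₀ ℤ) = r • Finsupp.single ((z, m), γ) 1 := by
      simp
    rw [hr]
    simp only [map_smul, ← smul_sub, ← smul_add]
    congr 1
    have e1 : Psi σ (Finsupp.single ((z, m), γ) 1) = translate γ (bb σ (z, m)) := by
      rw [Psi, Finsupp.linearCombination_single, one_smul]
    have e2 : ∀ k, pD φ k (Finsupp.single ((z, m), γ) 1) =
        if m = k then Finsupp.single ⟨z, γ⟩ 1 else 0 := by
      intro k
      rw [pD, Finsupp.linearCombination_single, one_smul]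
    have e3 : ss φ (Finsupp.single ⟨z, γ⟩ 1) = rhoZ φ γ z := by
      rw [ss, Finsupp.linearCombination_single, one_smul]
    rw [e1, e2, e2]
    cases m with
    | zero =>
      rw [translate_bb_zero hσ, map_add, cn_inlC, cn_lv, if_neg (Nat.succ_ne_zero n).symm]
      by_cases h : 0 = n
      · rw [if_pos h, if_pos h, e3]; simp
      · rw [if_neg h, if_neg h]; simp
    | succ m =>
      rw [translate_bb_succ hσ, map_add, cn_lv, cn_lv]
      by_cases h : m + 1 = n
      · have h2 : ¬ m = n := by omega
        have h3 : ¬ m + 1 = n + 1 := by omega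
        rw [if_pos h, if_neg h2, if_pos h, if_neg h3, e3]; simp
      · by_cases h2 : m = n
        · have h3 : m + 1 = n + 1 := by omega
          rw [if_neg h, if_pos h2, if_neg h, if_pos h3, e3]; simp
        · have h3 : ¬ m + 1 = n + 1 := by omega
          rw [if_neg h, if_neg h2, if_neg h, if_neg h3]; simp

theorem c0_Psi (hσ : ∀ γ z, σ (rhoZ φ γ z) = permRho ℤ Γ (FX Γ (ZZ φ)) γ (σ z))
    (x : YY φ × Γ →₀ ℤ) : c0 φ (Psi σ x) = (ss φ (pD φ 0 x) : ZZ φ) := by
  induction x using Finsupp.induction_linear with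
  | zero => simp
  | add f g hf hg => simp only [map_add, hf, hg, Submodule.coe_add]
  | single q r =>
    obtain ⟨⟨z, m⟩, γ⟩ := q
    have hr : (Finsupp.single ((z, m), γ) r : YY φ × Γ →₀ ℤ) = r • Finsupp.single ((z, m), γ) 1 := by
      simp
    rw [hr]
    simp only [map_smul, Submodule.coe_smul]
    congr 1
    have e1 : Psi σ (Finsupp.single ((z, m), γ) 1) = translate γ (bb σ (z, m)) := by
      rw [Psi, Finsupp.linearCombination_single, one_smul]
    have e2 : pD φ 0 (Finsupp.single ((z, m), γ) 1) =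
        if m = 0 then Finsupp.single ⟨z, γ⟩ 1 else 0 := by
      rw [pD, Finsupp.linearCombination_single, one_smul]
    have e3 : ss φ (Finsupp.single ⟨z, γ⟩ 1) = rhoZ φ γ z := by
      rw [ss, Finsupp.linearCombination_single, one_smul]
    rw [e1, e2]
    cases m with
    | zero =>
      rw [translate_bb_zero hσ, map_add, c0_inlC, c0_lv, if_pos rfl, e3, add_zero]
    | succ m =>
      rw [translate_bb_succ hσ, map_add, c0_lv, c0_lv, if_neg (Nat.succ_ne_zero m)]
      simp

theorem Psi_inj (h1 : ∀ z, ss φ (σ z) = z)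
    (hσ : ∀ γ z, σ (rhoZ φ γ z) = permRho ℤ Γ (FX Γ (ZZ φ)) γ (σ z))
    (x : YY φ × Γ →₀ ℤ) (hx : Psi σ x = 0) : x = 0 := by
  have hA : ∀ n, pD φ n x - σ (ss φ (pD φ n x)) + σ (ss φ (pD φ (n + 1) x)) = 0 := by
    intro n
    rw [← cn_Psi hσ, hx, map_zero]
  have hB : ss φ (pD φ 0 x) = 0 := by
    apply Subtype.ext
    rw [← c0_Psi hσ, hx, map_zero]
    rfl
  have hC : ∀ n, ss φ (pD φ (n + 1) x) = 0 := by
    intro n
    have h2 := congrArg (ss φ) (hA n)
    rw [map_add, map_sub, h1, h1, sub_self, zero_add, map_zero] at h2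
    exact h2
  have hD : ∀ n, pD φ n x = 0 := by
    intro n
    have h3 : ss φ (pD φ n x) = 0 := by
      cases n with
      | zero => exact hB
      | succ n => exact hC n
    have h2 := hA n
    rw [h3, hC, map_zero, sub_zero, add_zero] at h2
    exact h2
  ext ⟨⟨z, n⟩, γ⟩
  rw [← pD_apply, hD]
  rfl

theorem edge_inlC (v : FX Γ X →₀ ℤ) : edgeBoundary (phi' φ) (inlC φ v) =
    Finsupp.linearCombination ℤ (dd φ) v := by
  induction v using Finsupp.induction_linear with
  | zero => simp
  | add f g hf hg => rw [map_add, map_add, hf, hg, map_add]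
  | single e r =>
    rw [inlC_single, edgeBoundary, Finsupp.linearCombination_single,
      Finsupp.linearCombination_single]
    rfl

theorem edge_lv (n : ℕ) (v : FF φ) : edgeBoundary (phi' φ) (lv φ n v) = 0 := by
  induction v using Finsupp.induction_linear with
  | zero => simp
  | add f g hf hg => rw [map_add, map_add, hf, hg, add_zero]
  | single e r =>
    rw [lv_single, edgeBoundary, Finsupp.linearCombination_single]
    simp [phi']

theorem edge_c0 (v : EE' φ →₀ ℤ) : Finsupp.linearCombination ℤ (dd φ) (c0 φ v) =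
    edgeBoundary (phi' φ) v := by
  induction v using Finsupp.induction_linear with
  | zero => simp
  | add f g hf hg => simp only [map_add, hf, hg]
  | single e r =>
    obtain ⟨x | y, h⟩ := e
    · rw [c0, Finsupp.linearCombination_single, edgeBoundary, Finsupp.linearCombination_single,
        map_smul]
      dsimp only
      rw [Finsupp.linearCombination_single, one_smul]
      rfl
    · rw [c0, Finsupp.linearCombination_single, edgeBoundary, Finsupp.linearCombination_single]
      simp [phi']

/-- **The relation module becomes free.** -/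
theorem isRelationBasis (h1 : ∀ z, ss φ (σ z) = z)
    (hσ : ∀ γ z, σ (rhoZ φ γ z) = permRho ℤ Γ (FX Γ (ZZ φ)) γ (σ z)) :
    IsRelationBasis (phi' φ) (bb σ) := by
  refine ⟨linearIndependent_iff.2 fun x hx => Psi_inj h1 hσ x hx, ?_⟩
  rw [← Finsupp.range_linearCombination]
  change LinearMap.range (Psi σ) = _
  apply le_antisymm
  · rintro _ ⟨x, rfl⟩
    rw [LinearMap.mem_ker]
    induction x using Finsupp.induction_linear with
    | zero => simp
    | add f g hf hg => simp only [map_add, hf, hg, add_zero]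
    | single q r =>
      obtain ⟨⟨z, m⟩, γ⟩ := q
      rw [Psi, Finsupp.linearCombination_single, map_smul]
      dsimp only
      cases m with
      | zero =>
        rw [translate_bb_zero hσ, map_add, edge_inlC, edge_lv, mem_ZZ.1 (rhoZ φ γ z).2, add_zero,
          smul_zero]
      | succ m => rw [translate_bb_succ hσ, map_add, edge_lv, edge_lv, add_zero, smul_zero]
  · -- old cycles
    have hZ : ∀ z : ZZ φ, inlC φ z ∈ LinearMap.range (Psi σ) := by
      intro z
      refine ⟨dv φ 0 (σ z), ?_⟩
      rw [Psi_dv_zero hσ, h1, sub_self, map_zero, add_zero]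
    -- new chains
    have hL : ∀ (n : ℕ) (g : FF φ), lv φ n g ∈ LinearMap.range (Psi σ) := by
      intro n g
      have e1 : ss φ (g - σ (ss φ g)) = 0 := by rw [map_sub, h1, sub_self]
      have e2 : Psi σ (dv φ (n + 1) (σ (ss φ g))) = lv φ n (σ (ss φ g)) := by
        rw [Psi_dv_succ hσ, h1, sub_self, map_zero, zero_add]
      have e3 : Psi σ (dv φ n (g - σ (ss φ g))) = lv φ n (g - σ (ss φ g)) := by
        cases n with
        | zero => rw [Psi_dv_zero hσ, e1, map_zero, sub_zero, Submodule.coe_zero, map_zero, zero_add]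
        | succ n => rw [Psi_dv_succ hσ, e1, map_zero, sub_zero, map_zero, add_zero]
      refine ⟨dv φ n (g - σ (ss φ g)) + dv φ (n + 1) (σ (ss φ g)), ?_⟩
      rw [map_add, e2, e3, ← map_add, sub_add_cancel]
    have hR : ∀ v : EE' φ →₀ ℤ, v - inlC φ (c0 φ v) ∈ LinearMap.range (Psi σ) := by
      intro v
      induction v using Finsupp.induction_linear with
      | zero => simp
      | add f g hf hg =>
        have := add_mem hf hg
        rw [sub_add_sub_comm, ← map_add, ← map_add] at this
        exact this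
      | single e r =>
        obtain ⟨x | y, h⟩ := e
        · have e1 : c0 φ (Finsupp.single (Sum.inl x, h) r) = Finsupp.single ⟨x, h⟩ r := by
            rw [c0, Finsupp.linearCombination_single]; simp
          rw [e1, inlC_single, sub_self]
          exact zero_mem _
        · have e1 : c0 φ (Finsupp.single (Sum.inr y, h) r) = 0 := by
            rw [c0, Finsupp.linearCombination_single]; simp
          rw [e1, map_zero, sub_zero]
          have := hL y.2 (Finsupp.single ⟨y.1, h⟩ r)
          rw [lv_single] at this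
          exact this
    intro v hv
    have hc : c0 φ v ∈ ZZ φ := by
      rw [mem_ZZ, edge_c0]
      exact hv
    have := add_mem (hR v) (hZ ⟨c0 φ v, hc⟩)
    rw [sub_add_cancel] at this
    exact this

/-- For a group with `cd ≤ 2` the relation module of every generating family becomes free after
adding trivial generators. -/
theorem exists_relationBasis (φ : X → Γ) (hφ : Function.Surjective (FreeGroup.lift φ))
    (h2 : CategoryTheory.HasProjectiveDimensionLE (Rep.trivial ℤ Γ ℤ) 2) :
    ∃ (Y : Type) (b : Y → ((X ⊕ Y) × Γ →₀ ℤ)),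
      IsRelationBasis (Sum.elim φ fun _ : Y => (1 : Γ)) b := by
  obtain ⟨σ, h1, hσ⟩ := exists_section hφ h2
  exact ⟨YY φ, bb σ, isRelationBasis h1 hσ⟩

end Vale.Agent.P173.H956
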